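import Mathlib

/-!
# Nearest points of a closed convex set and sharp points (LEMMA P of the general-K project, core)

Generic facts in a real inner product space `E`:

* `nearest_exists` : a nonempty closed convex set in a complete space has, for every `X`,
  a point `p` with the variational inequality `inner (X - p) (y - p) <= 0` for all `y` in the set.
* `nearest_lipschitz` : two such points for `X`, `Y` satisfy `norm (p - q) <= norm (X - Y)`.
* `sharp_nearest` : if `e` lies in two caps of height `eta` (normals `xi1`, `xi2`, not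
  necessarily unit) and `p` is nearest to `e + a xi1 + b xi2` (`a, b >= 0`, `a + b <= rho`),
  then `norm (p - e) ^ 2 <= 2 rho eta`.
* `sharp_sector_near` : with a further displacement `w`, `norm w <= d0`, `2 rho eta <= d0 ^ 2`:
  the nearest point of `e + a xi1 + b xi2 + w` is within `2 d0` of `e`.
* `sharp_sectors_apart` : a common point of the sectors of `e` and `e'` forces
  `dist e e' <= 4 d0`.
-/

namespace Vale.Agent.H30.GenK

open scoped RealInnerProductSpace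

variable {E : Type*} [NormedAddCommGroup E] [InnerProductSpace ℝ E]

theorem nearest_exists [CompleteSpace E] (K : Set E) (hne : K.Nonempty) (hcl : IsClosed K)
    (hconv : Convex ℝ K) (X : E) :
    ∃ p ∈ K, ∀ y ∈ K, inner ℝ (X - p) (y - p) ≤ 0 := by
  obtain ⟨p, hpK, hp⟩ := exists_norm_eq_iInf_of_complete_convex hne hcl.isComplete hconv X
  exact ⟨p, hpK, (norm_eq_iInf_iff_real_inner_le_zero hconv hpK).1 hp⟩

theorem nearest_lipschitz (K : Set E) (X Y p q : E) (hp : p ∈ K) (hq : q ∈ K)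
    (hpX : ∀ y ∈ K, inner ℝ (X - p) (y - p) ≤ 0)
    (hqY : ∀ y ∈ K, inner ℝ (Y - q) (y - q) ≤ 0) :
    ‖p - q‖ ≤ ‖X - Y‖ := by
  have h1 := hpX q hq
  have h2 := hqY p hp
  have key : ‖p - q‖ ^ 2 ≤ inner ℝ (X - Y) (p - q) := by
    have e1 : inner ℝ (X - Y) (p - q)
        = ‖p - q‖ ^ 2 - inner ℝ (X - p) (q - p) - inner ℝ (Y - q) (p - q) := by
      have hx : X - Y = (p - q) + (X - p) - (Y - q) := by abel
      have hqp : q - p = -(p - q) := by abel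
      rw [hx, inner_sub_left, inner_add_left, real_inner_self_eq_norm_sq, hqp, inner_neg_right]
      ring
    rw [e1]
    linarith
  have cs : inner ℝ (X - Y) (p - q) ≤ ‖X - Y‖ * ‖p - q‖ := real_inner_le_norm _ _
  by_cases h0 : ‖p - q‖ = 0
  · rw [h0]; exact norm_nonneg _
  · have hpos : 0 < ‖p - q‖ := lt_of_le_of_ne (norm_nonneg _) (Ne.symm h0)
    have : ‖p - q‖ * ‖p - q‖ ≤ ‖X - Y‖ * ‖p - q‖ := by nlinarith
    exact le_of_mul_le_mul_right this hpos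

theorem sharp_nearest (K : Set E) (e xi1 xi2 p : E) (eta rho a b : ℝ)
    (he : e ∈ K) (hp : p ∈ K)
    (h1 : ∀ y ∈ K, inner ℝ xi1 (y - e) ≤ eta) (h2 : ∀ y ∈ K, inner ℝ xi2 (y - e) ≤ eta)
    (ha : 0 ≤ a) (hb : 0 ≤ b) (hab : a + b ≤ rho)
    (hpX : ∀ y ∈ K, inner ℝ (e + a • xi1 + b • xi2 - p) (y - p) ≤ 0) :
    ‖p - e‖ ^ 2 ≤ 2 * rho * eta := by
  have hv := hpX e he
  have h1p := h1 p hp
  have h2p := h2 p hp
  have heta : 0 ≤ eta := by
    have := h1 e he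
    simpa using this
  have e1 : inner ℝ (e + a • xi1 + b • xi2 - p) (e - p)
      = ‖p - e‖ ^ 2 - a * inner ℝ xi1 (p - e) - b * inner ℝ xi2 (p - e) := by
    have hx : e + a • xi1 + b • xi2 - p = -(p - e) + a • xi1 + b • xi2 := by abel
    have hep : e - p = -(p - e) := by abel
    rw [hx, hep, inner_neg_right, inner_add_left, inner_add_left, inner_neg_left,
      real_inner_self_eq_norm_sq, inner_smul_left, inner_smul_left]
    simp only [RCLike.conj_to_real]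
    ring
  rw [e1] at hv
  have t1 : a * inner ℝ xi1 (p - e) ≤ a * eta := mul_le_mul_of_nonneg_left h1p ha
  have t2 : b * inner ℝ xi2 (p - e) ≤ b * eta := mul_le_mul_of_nonneg_left h2p hb
  have t3 : (a + b) * eta ≤ rho * eta := mul_le_mul_of_nonneg_right hab heta
  nlinarith

theorem sharp_sector_near (K : Set E) (e xi1 xi2 w p : E) (eta rho d0 a b : ℝ)
    [CompleteSpace E] (hcl : IsClosed K) (hconv : Convex ℝ K)
    (he : e ∈ K) (hp : p ∈ K)
    (h1 : ∀ y ∈ K, inner ℝ xi1 (y - e) ≤ eta) (h2 : ∀ y ∈ K, inner ℝ xi2 (y - e) ≤ eta)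
    (ha : 0 ≤ a) (hb : 0 ≤ b) (hab : a + b ≤ rho)
    (hd0 : 0 ≤ d0) (hd : 2 * rho * eta ≤ d0 ^ 2) (hw : ‖w‖ ≤ d0)
    (hpX : ∀ y ∈ K, inner ℝ (e + a • xi1 + b • xi2 + w - p) (y - p) ≤ 0) :
    ‖p - e‖ ≤ 2 * d0 := by
  obtain ⟨q, hqK, hq⟩ := nearest_exists K ⟨e, he⟩ hcl hconv (e + a • xi1 + b • xi2)
  have hq2 : ‖q - e‖ ^ 2 ≤ 2 * rho * eta :=
    sharp_nearest K e xi1 xi2 q eta rho a b he hqK h1 h2 ha hb hab hq
  have hqe : ‖q - e‖ ≤ d0 := by
    have : ‖q - e‖ ^ 2 ≤ d0 ^ 2 := le_trans hq2 hd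
    exact (abs_le_of_sq_le_sq' this hd0).2
  have hpq : ‖p - q‖ ≤ ‖(e + a • xi1 + b • xi2 + w) - (e + a • xi1 + b • xi2)‖ :=
    nearest_lipschitz K _ _ p q hp hqK hpX hq
  have hw' : (e + a • xi1 + b • xi2 + w) - (e + a • xi1 + b • xi2) = w := by abel
  rw [hw'] at hpq
  calc ‖p - e‖ = ‖(p - q) + (q - e)‖ := by congr 1; abel
    _ ≤ ‖p - q‖ + ‖q - e‖ := norm_add_le _ _
    _ ≤ d0 + d0 := add_le_add (le_trans hpq hw) hqe
    _ = 2 * d0 := by ring

theorem sharp_sectors_apart (K : Set E) (e e' xi1 xi2 xi1' xi2' w w' : E)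
    (eta rho d0 a b a' b' : ℝ)
    [CompleteSpace E] (hcl : IsClosed K) (hconv : Convex ℝ K)
    (he : e ∈ K) (he' : e' ∈ K)
    (h1 : ∀ y ∈ K, inner ℝ xi1 (y - e) ≤ eta) (h2 : ∀ y ∈ K, inner ℝ xi2 (y - e) ≤ eta)
    (h1' : ∀ y ∈ K, inner ℝ xi1' (y - e') ≤ eta) (h2' : ∀ y ∈ K, inner ℝ xi2' (y - e') ≤ eta)
    (ha : 0 ≤ a) (hb : 0 ≤ b) (hab : a + b ≤ rho)
    (ha' : 0 ≤ a') (hb' : 0 ≤ b') (hab' : a' + b' ≤ rho)
    (hd0 : 0 ≤ d0) (hd : 2 * rho * eta ≤ d0 ^ 2) (hw : ‖w‖ ≤ d0) (hw' : ‖w'‖ ≤ d0)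
    (hX : e + a • xi1 + b • xi2 + w = e' + a' • xi1' + b' • xi2' + w') :
    dist e e' ≤ 4 * d0 := by
  obtain ⟨p, hpK, hp⟩ := nearest_exists K ⟨e, he⟩ hcl hconv (e + a • xi1 + b • xi2 + w)
  have hpe : ‖p - e‖ ≤ 2 * d0 :=
    sharp_sector_near K e xi1 xi2 w p eta rho d0 a b hcl hconv he hpK h1 h2 ha hb hab hd0 hd hw hp
  have hp' : ∀ y ∈ K, inner ℝ (e' + a' • xi1' + b' • xi2' + w' - p) (y - p) ≤ 0 := by
    rw [← hX]; exact hp
  have hpe' : ‖p - e'‖ ≤ 2 * d0 :=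
    sharp_sector_near K e' xi1' xi2' w' p eta rho d0 a' b' hcl hconv he' hpK h1' h2' ha' hb' hab'
      hd0 hd hw' hp'
  calc dist e e' = ‖e - e'‖ := dist_eq_norm _ _
    _ = ‖(p - e') - (p - e)‖ := by congr 1; abel
    _ ≤ ‖p - e'‖ + ‖p - e‖ := norm_sub_le _ _
    _ ≤ 2 * d0 + 2 * d0 := add_le_add hpe' hpe
    _ = 4 * d0 := by ring

end Vale.Agent.H30.GenK
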